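import Vale.Agent.P300LP.Fin
import Vale.Agent.P300LU.Bd
import Vale.Agent.P300LH.Limq
import Vale.Agent.P300LT.Fam

/-! `EVEN` from the theta family block. -/

open P300LT

namespace Vale.Agent.P300LP

theorem bd' : BD := P300LU.bd neg d1 d2 (P300LU.omb neg gsu)

theorem even_tf (h : TFAM) : EVEN :=
  even_of bd' (P300LH.limq inv (qf bd') (P300LU.per neg d1 d2 (P300LU.omb neg gsu) h) bd')

theorem even_all : EVEN := even_tf tfam

end Vale.Agent.P300LP
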