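import Mathlib

/-! The entire exponential integral `Ein` and the factor `ee x = x exp (- Ein x)`. -/

namespace Vale.Agent.P300LP

open Complex Set Filter Topology

/-- `(1 - exp (-x)) / x`, entire. -/
noncomputable def ein1 : ℂ → ℂ := dslope (fun x : ℂ => -Complex.exp (-x)) 0

theorem ein1_diff : Differentiable ℂ ein1 := by
  have h : DifferentiableOn ℂ (fun x : ℂ => -Complex.exp (-x)) univ := by fun_prop
  exact differentiableOn_univ.1 ((Complex.differentiableOn_dslope univ_mem).2 h)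

theorem mul_ein1 (x : ℂ) : x * ein1 x = 1 - Complex.exp (-x) := by
  have h := sub_smul_dslope (fun x : ℂ => -Complex.exp (-x)) 0 x
  simp only [sub_zero, smul_eq_mul, neg_zero, Complex.exp_zero] at h
  rw [ein1, h]; ring

theorem ex_ein : ∃ g : ℂ → ℂ, g 0 = 0 ∧ ∀ x, HasDerivAt g (ein1 x) x := by
  obtain ⟨g, h0, hg⟩ := (ein1_diff.isExactOn_univ).with_val_at 0 0
  exact ⟨g, h0, fun x => hg x (mem_univ x)⟩

/-- The entire function with `Ein 0 = 0`, `x Ein' x = 1 - exp (-x)`. -/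
noncomputable def Ein : ℂ → ℂ := Classical.choose ex_ein

theorem Ein_zero : Ein 0 = 0 := (Classical.choose_spec ex_ein).1

theorem Ein_deriv (x : ℂ) : HasDerivAt Ein (ein1 x) x := (Classical.choose_spec ex_ein).2 x

theorem Ein_diff : Differentiable ℂ Ein := fun x => (Ein_deriv x).differentiableAt

theorem Ein_an (x : ℂ) : AnalyticAt ℂ Ein x := Ein_diff.analyticAt x

theorem ein1_an (x : ℂ) : AnalyticAt ℂ ein1 x := ein1_diff.analyticAt x

/-- `log x - Ein x`. -/
noncomputable def LE (x : ℂ) : ℂ := Complex.log x - Ein x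

theorem LE_deriv {x : ℂ} (hx : x ∈ slitPlane) : HasDerivAt LE (Complex.exp (-x) / x) x := by
  have h0 : x ≠ 0 := slitPlane_ne_zero hx
  have h := (Complex.hasDerivAt_log hx).sub (Ein_deriv x)
  have e : x⁻¹ - ein1 x = Complex.exp (-x) / x := by
    have := mul_ein1 x
    field_simp
    linear_combination -this
  exact h.congr_deriv e

theorem LE_lip {a : ℝ} (ha : 1 ≤ a) {x y : ℂ} (hx : a ≤ x.re) (hy : a ≤ y.re) :
    ‖LE y - LE x‖ ≤ Real.exp (-a) * ‖y - x‖ := by
  have hc : Convex ℝ {z : ℂ | a ≤ z.re} := convex_halfSpace_re_ge a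
  refine hc.norm_image_sub_le_of_norm_hasDerivWithin_le
    (f' := fun z => Complex.exp (-z) / z) (fun z hz => ?_) (fun z hz => ?_) hx hy
  · exact (LE_deriv (Or.inl (lt_of_lt_of_le (by linarith) hz))).hasDerivWithinAt
  · have hz' : a ≤ z.re := hz
    have h1 : 1 ≤ ‖z‖ := (ha.trans hz').trans ((le_abs_self _).trans (Complex.abs_re_le_norm z))
    rw [norm_div, Complex.norm_exp]
    calc Real.exp (-z).re / ‖z‖ ≤ Real.exp (-z).re := div_le_self (Real.exp_pos _).le h1
      _ ≤ Real.exp (-a) := Real.exp_le_exp.2 (by simpa using hz')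

theorem LE_step {x : ℂ} (hx : 1 ≤ x.re) (n : ℕ) :
    dist (LE (x + n)) (LE (x + ((n + 1 : ℕ) : ℂ))) ≤ Real.exp (-x.re) * (Real.exp (-1)) ^ n := by
  have hn : (0 : ℝ) ≤ n := Nat.cast_nonneg n
  have h := LE_lip (a := x.re + n) (by linarith) (x := x + ((n + 1 : ℕ) : ℂ)) (y := x + n)
    (by simp) (by simp)
  rw [dist_eq_norm]
  refine h.trans (le_of_eq ?_)
  have e : x + (n : ℂ) - (x + ((n + 1 : ℕ) : ℂ)) = -1 := by push_cast; ring
  rw [e, norm_neg, norm_one, mul_one, ← Real.exp_nat_mul, ← Real.exp_add]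
  congr 1; ring

theorem exp_neg_one_le : Real.exp (-1) ≤ 1 / 2 := by
  have h := Real.add_one_le_exp (1 : ℝ)
  rw [Real.exp_neg, one_div]
  exact inv_anti₀ (by norm_num) (by linarith)

theorem ex_gam : ∃ g : ℂ, ∀ x : ℂ, 1 ≤ x.re → ‖LE x - g‖ ≤ 2 * Real.exp (-x.re) := by
  have hr : Real.exp (-1) < 1 := by have := exp_neg_one_le; linarith
  have hcs : ∀ x : ℂ, 1 ≤ x.re → ∃ g, Tendsto (fun n : ℕ => LE (x + n)) atTop (𝓝 g) :=
    fun x hx => cauchySeq_tendsto_of_complete (cauchySeq_of_le_geometric _ _ hr (LE_step hx))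
  obtain ⟨g, hg⟩ := hcs 1 (by simp)
  refine ⟨g, fun x hx => ?_⟩
  have hd : Tendsto (fun n : ℕ => LE (x + n) - LE (1 + n)) atTop (𝓝 0) := by
    have hb : Tendsto (fun n : ℕ => (Real.exp (-1)) ^ n * ‖x - 1‖) atTop (𝓝 (0 * ‖x - 1‖)) :=
      (tendsto_pow_atTop_nhds_zero_of_lt_one (Real.exp_pos _).le hr).mul_const _
    rw [zero_mul] at hb
    refine squeeze_zero_norm (fun n => ?_) hb
    have hn : (0 : ℝ) ≤ n := Nat.cast_nonneg n
    have h := LE_lip (a := 1 + n) (by linarith) (x := 1 + n) (y := x + n) (by simp)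
      (by simpa using hx)
    have e : x + (n : ℂ) - (1 + n) = x - 1 := by ring
    rw [e] at h
    refine h.trans (mul_le_mul_of_nonneg_right ?_ (norm_nonneg _))
    rw [← Real.exp_nat_mul]
    exact Real.exp_le_exp.2 (by linarith)
  have hx' : Tendsto (fun n : ℕ => LE (x + n)) atTop (𝓝 g) := by
    have := hd.add hg
    simpa using this
  have h := dist_le_of_le_geometric_of_tendsto₀ _ _ hr (LE_step hx) hx'
  rw [dist_eq_norm] at h
  simp only [Nat.cast_zero, add_zero] at h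
  refine h.trans ?_
  have h2 := exp_neg_one_le
  rw [div_le_iff₀ (by linarith)]
  nlinarith [Real.exp_pos (-x.re)]

/-- The limit of `log x - Ein x` at `+ infinity` (minus the Euler constant). -/
noncomputable def gam0 : ℂ := Classical.choose ex_gam

theorem LE_bound {x : ℂ} (hx : 1 ≤ x.re) : ‖LE x - gam0‖ ≤ 2 * Real.exp (-x.re) :=
  Classical.choose_spec ex_gam x hx

theorem LE_sub {x y : ℂ} (hx : 1 ≤ x.re) (hy : 1 ≤ y.re) :
    ‖LE x - LE y‖ ≤ 2 * Real.exp (-x.re) + 2 * Real.exp (-y.re) := by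
  have e : LE x - LE y = (LE x - gam0) - (LE y - gam0) := by ring
  rw [e]
  exact (norm_sub_le _ _).trans (add_le_add (LE_bound hx) (LE_bound hy))

/-- The factor with a simple zero at `0` that tends to a constant at `+ infinity`. -/
noncomputable def ee (x : ℂ) : ℂ := x * Complex.exp (-Ein x)

theorem ee_diff : Differentiable ℂ ee := fun x =>
  differentiableAt_id.mul (Ein_diff x).neg.cexp

theorem ee_ne {x : ℂ} (hx : x ≠ 0) : ee x ≠ 0 := mul_ne_zero hx (Complex.exp_ne_zero _)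

theorem ee_eq {x : ℂ} (hx : x ≠ 0) : ee x = Complex.exp (LE x) := by
  rw [LE, sub_eq_add_neg, Complex.exp_add, Complex.exp_log hx, ee]

end Vale.Agent.P300LP
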