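import Vale.Agent.P300LP.Pol

/-! The statement of the splitting of the polarised theta kernel. -/

open scoped ComplexConjugate Topology
open NumberField Module
open Vale.Agent.P288.BQ Vale.Agent.P288.X11 P300LT

namespace Vale.Agent.P300LP

/-- Block KER in polarised form. -/
def KERP : Prop := ∀ (L : Type) [Field L] [NumberField L] [IsCMField L] (p : ℕ) (S : Setup L p),
  2 < finrank ℚ L → 0 < p → ∃ N₀ : ℕ, 0 < N₀ ∧ ∀ N : ℕ, 0 < N → N₀ ∣ N →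
  ∀ u : Fin (p + 1) → L, Intg u →
    ∃ Γ : Subgroup (GL (Fin (p + 1)) L), S.Arith Γ ∧
    ∃ (n : ℕ) (ψ ψ' : Fin n → (Fin p → ℂ) → ℂ) (c c' : Fin n → GL (Fin (p + 1)) L → ℂ),
      (∀ i, DifferentiableOn ℂ (ψ i) S.B ∧ DifferentiableOn ℂ (ψ' i) S.B ∧
        S.HasPer Γ (ψ i) (c i) ∧ S.HasPer Γ (ψ' i) (c' i)) ∧
      ∀ z ∈ S.B, ∀ w ∈ S.B, ∀ X Y, HasSum (fun m : Fin (p + 1) → 𝓞 L =>
        (wt S (fun k => u k + (N : L) * (m k : L)) : ℂ) *
          Wq S.h (tt S) (cv S (fun k => u k + (N : L) * (m k : L))) z w X Y)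
        (∑ i, fderiv ℂ (ψ i) z X * conj (fderiv ℂ (ψ' i) w Y))

end Vale.Agent.P300LP
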