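import Vale.Agent.P300LP.Ein

/-! Holomorphic series and the Weierstrass type product of the factors `ee`. -/

namespace Vale.Agent.P300LP

open Complex Set Filter Topology Metric

variable {E : Type*} [NormedAddCommGroup E] [NormedSpace ℂ E] {ι : Type*}

set_option linter.unusedSectionVars false

theorem fderiv_le {f : E → ℂ} {x : E} {r B : ℝ} (hr : 0 < r)
    (hf : DifferentiableOn ℂ f (ball x r)) (hb : ∀ y ∈ ball x r, ‖f y‖ ≤ B) :
    ‖fderiv ℂ f x‖ ≤ 2 * B / r := by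
  refine Complex.norm_fderiv_le_div_of_mapsTo_ball (R₂ := 2 * B) hf ?_ hr
  intro y hy
  rw [mem_closedBall, dist_eq_norm]
  calc ‖f y - f x‖ ≤ ‖f y‖ + ‖f x‖ := norm_sub_le _ _
    _ ≤ 2 * B := by linarith [hb y hy, hb x (mem_ball_self hr)]

/-- A dominated series of holomorphic functions: the derivative at a point. -/
theorem hasFDerivAt_tsum {f : ι → E → ℂ} {U : Set E} {z₀ : E} (hU : U ∈ 𝓝 z₀)
    (hf : ∀ i, DifferentiableOn ℂ (f i) U) {u : ι → ℝ} (hu : Summable u)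
    (hb : ∀ i, ∀ z ∈ U, ‖f i z‖ ≤ u i) :
    (Summable fun i => ‖fderiv ℂ (f i) z₀‖) ∧
      HasFDerivAt (fun z => ∑' i, f i z) (∑' i, fderiv ℂ (f i) z₀) z₀ := by
  obtain ⟨r, hr, hrU⟩ := Metric.mem_nhds_iff.1 hU
  have hsub : ∀ x ∈ ball z₀ (r / 2), ball x (r / 2) ⊆ ball z₀ r := by
    intro x hx
    apply ball_subset_ball'
    rw [mem_ball] at hx
    linarith
  have hsub' : ball z₀ (r / 2) ⊆ ball z₀ r := ball_subset_ball (by linarith)
  have hd : ∀ i, ∀ x ∈ ball z₀ (r / 2), HasFDerivAt (f i) (fderiv ℂ (f i) x) x := fun i x hx =>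
    (((hf i).mono hrU).differentiableAt (isOpen_ball.mem_nhds (hsub' hx))).hasFDerivAt
  have hbd : ∀ i, ∀ x ∈ ball z₀ (r / 2), ‖fderiv ℂ (f i) x‖ ≤ 2 * u i / (r / 2) := by
    intro i x hx
    exact fderiv_le (by positivity) ((hf i).mono ((hsub x hx).trans hrU))
      fun y hy => hb i y (hrU (hsub x hx hy))
  have hu' : Summable fun i => 2 * u i / (r / 2) := (hu.mul_left 2).div_const _
  have hconn : IsPreconnected (ball z₀ (r / 2)) := by
    have : NormedSpace ℝ E := NormedSpace.restrictScalars ℝ ℂ E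
    exact (convex_ball z₀ (r / 2)).isPreconnected
  have hz₀' : z₀ ∈ ball z₀ (r / 2) := mem_ball_self (by positivity)
  have h0 : Summable fun i => f i z₀ :=
    Summable.of_norm_bounded hu fun i => hb i z₀ (hrU (mem_ball_self hr))
  exact ⟨Summable.of_nonneg_of_le (fun _ => norm_nonneg _) (fun i => hbd i z₀ hz₀') hu',
    hasFDerivAt_tsum_of_isPreconnected hu' isOpen_ball hconn hd hbd hz₀' h0 hz₀'⟩

theorem diffOn_prod {f : ι → E → ℂ} {U : Set E} (T : Finset ι)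
    (hf : ∀ i ∈ T, DifferentiableOn ℂ (f i) U) :
    DifferentiableOn ℂ (fun z => ∏ i ∈ T, f i z) U := by
  classical
  induction T using Finset.induction_on with
  | empty => simp
  | insert a s ha ih =>
    simp only [Finset.prod_insert ha]
    exact (hf a (Finset.mem_insert_self _ _)).mul
      (ih fun i hi => hf i (Finset.mem_insert_of_mem hi))

/-- Local domination of a series of functions. -/
def Bdd (B : Set E) (f : ι → E → ℂ) : Prop :=
  ∀ z ∈ B, ∃ W ∈ 𝓝 z, ∃ u : ι → ℝ, Summable u ∧ ∀ i, ∀ y ∈ W, ‖f i y‖ ≤ u i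

theorem diffOn_tsum {f : ι → E → ℂ} {B : Set E} (hB : IsOpen B)
    (hf : ∀ i, DifferentiableOn ℂ (f i) B) (hb : Bdd B f) :
    DifferentiableOn ℂ (fun z => ∑' i, f i z) B := by
  intro z hz
  obtain ⟨W, hW, u, hu, h⟩ := hb z hz
  exact (hasFDerivAt_tsum (inter_mem hW (hB.mem_nhds hz))
    (fun i => (hf i).mono inter_subset_right) hu
    fun i y hy => h i y hy.1).2.differentiableAt.differentiableWithinAt

/-- Local domination of `exp (- Re r)`. -/
def Dom (B : Set E) (r : ι → E → ℂ) : Prop :=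
  ∀ z ∈ B, ∃ W ∈ 𝓝 z, ∃ u : ι → ℝ, Summable u ∧ ∀ v, ∀ y ∈ W, Real.exp (-(r v y).re) ≤ u v

theorem fin_big {u : ι → ℝ} (hu : Summable u) :
    ∃ T : Finset ι, ∀ v, v ∉ T → ∀ x : ℂ, Real.exp (-x.re) ≤ u v → 1 ≤ x.re := by
  have h := hu.tendsto_cofinite_zero.eventually (gt_mem_nhds (Real.exp_pos (-1)))
  rw [Filter.eventually_cofinite] at h
  refine ⟨h.toFinset, fun v hv x hx => ?_⟩
  have h1 : u v < Real.exp (-1) := by
    by_contra hc
    exact hv (h.mem_toFinset.2 hc)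
  have := Real.exp_lt_exp.1 (hx.trans_lt h1)
  linarith

theorem hasProd_split {f g : ι → ℂ} (T : Finset ι) (hg : Summable fun v : {v // v ∉ T} => g v)
    (h : ∀ v, v ∉ T → f v = Complex.exp (g v)) :
    HasProd f ((∏ v ∈ T, f v) * Complex.exp (∑' v : {v // v ∉ T}, g v)) := by
  have h1 : HasProd (fun v : {v // v ∉ T} => f v) (Complex.exp (∑' v : {v // v ∉ T}, g v)) := by
    have h2 := hg.hasSum.cexp
    have e : (Complex.exp ∘ fun v : {v // v ∉ T} => g v) = fun v : {v // v ∉ T} => f v :=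
      funext fun v => (h v v.2).symm
    rwa [e] at h2
  exact (T.hasProd f).mul_isCompl (s := (T : Set ι)) (t := {v | v ∉ T}) isCompl_compl h1

theorem re_ne {x : ℂ} (hx : 1 ≤ x.re) : x ≠ 0 := by
  rintro rfl
  norm_num at hx

/-- The quotient product of two families of numbers that tend to infinity. -/
theorem hasProd_quot {x y : ι → ℂ} (T : Finset ι) (hx : Summable fun v => Real.exp (-(x v).re))
    (hy : Summable fun v => Real.exp (-(y v).re)) (hT : ∀ v, v ∉ T → 1 ≤ (x v).re ∧ 1 ≤ (y v).re) :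
    HasProd (fun v => ee (x v) / ee (y v)) ((∏ v ∈ T, ee (x v) / ee (y v)) *
      Complex.exp (∑' v : {v // v ∉ T}, (LE (x v) - LE (y v)))) := by
  refine hasProd_split (g := fun v => LE (x v) - LE (y v)) T ?_ fun v hv => ?_
  · refine Summable.of_norm_bounded
      (((hx.mul_left 2).add (hy.mul_left 2)).subtype {v | v ∉ T}) fun v => ?_
    exact LE_sub (hT v v.2).1 (hT v v.2).2
  · rw [ee_eq (re_ne (hT v hv).1), ee_eq (re_ne (hT v hv).2), Complex.exp_sub]

theorem ex_hasProd {x y : ι → ℂ} (hx : Summable fun v => Real.exp (-(x v).re))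
    (hy : Summable fun v => Real.exp (-(y v).re)) (hy0 : ∀ v, y v ≠ 0) :
    ∃ P, HasProd (fun v => ee (x v) / ee (y v)) P ∧ ((∀ v, x v ≠ 0) → P ≠ 0) := by
  classical
  obtain ⟨T₁, h₁⟩ := fin_big hx
  obtain ⟨T₂, h₂⟩ := fin_big hy
  refine ⟨_, hasProd_quot (T₁ ∪ T₂) hx hy fun v hv => ?_, fun h => ?_⟩
  · rw [Finset.mem_union, not_or] at hv
    exact ⟨h₁ v hv.1 _ le_rfl, h₂ v hv.2 _ le_rfl⟩
  · exact mul_ne_zero (Finset.prod_ne_zero_iff.2 fun v _ =>
      div_ne_zero (ee_ne (h v)) (ee_ne (hy0 v))) (Complex.exp_ne_zero _)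

theorem Dom.summable {B : Set E} {r : ι → E → ℂ} (h : Dom B r) {z : E} (hz : z ∈ B) :
    Summable fun v => Real.exp (-(r v z).re) := by
  obtain ⟨W, hW, u, hu, h⟩ := h z hz
  exact Summable.of_nonneg_of_le (fun _ => (Real.exp_pos _).le)
    (fun v => h v z (mem_of_mem_nhds hW)) hu

/-- The product normalised by constants `y v`. -/
noncomputable def pr (r : ι → E → ℂ) (y : ι → ℂ) (z : E) : ℂ := ∏' v, ee (r v z) / ee (y v)

theorem pr_hasProd {B : Set E} {r : ι → E → ℂ} (h : Dom B r) {y : ι → ℂ}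
    (hy : Summable fun v => Real.exp (-(y v).re)) (hy0 : ∀ v, y v ≠ 0) {z : E} (hz : z ∈ B) :
    HasProd (fun v => ee (r v z) / ee (y v)) (pr r y z) := by
  obtain ⟨P, hP, -⟩ := ex_hasProd (h.summable hz) hy hy0
  exact hP.multipliable.hasProd

/-- Local factorisation of the product. -/
theorem pr_loc {B : Set E} (hB : IsOpen B) {r : ι → E → ℂ} (hr : ∀ v, DifferentiableOn ℂ (r v) B)
    (h : Dom B r) {y : ι → ℂ} (hy : Summable fun v => Real.exp (-(y v).re)) (hy0 : ∀ v, y v ≠ 0)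
    {z₀ : E} (hz : z₀ ∈ B) :
    ∃ U : Set E, IsOpen U ∧ z₀ ∈ U ∧ U ⊆ B ∧ ∃ T : Finset ι, (∀ v, v ∉ T → ∀ z ∈ U, r v z ≠ 0) ∧
      ∃ u : E → ℂ, DifferentiableOn ℂ u U ∧ ∀ z ∈ U, u z ≠ 0 ∧ pr r y z = u z * ∏ v ∈ T, r v z := by
  classical
  obtain ⟨W, hW, u, hu, hb⟩ := h z₀ hz
  obtain ⟨U, hUW, hU, hzU⟩ := _root_.mem_nhds_iff.1 (inter_mem hW (hB.mem_nhds hz))
  have hUB : U ⊆ B := fun z hz => (hUW hz).2
  obtain ⟨T₁, h₁⟩ := fin_big hu
  obtain ⟨T₂, h₂⟩ := fin_big hy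
  have hT : ∀ z ∈ U, ∀ v, v ∉ T₁ ∪ T₂ → 1 ≤ (r v z).re ∧ 1 ≤ (y v).re := fun z hz v hv => by
    rw [Finset.mem_union, not_or] at hv
    exact ⟨h₁ v hv.1 _ (hb v z (hUW hz).1), h₂ v hv.2 _ le_rfl⟩
  refine ⟨U, hU, hzU, hUB, T₁ ∪ T₂, fun v hv z hz => re_ne (hT z hz v hv).1,
    fun z => (∏ v ∈ T₁ ∪ T₂, Complex.exp (-Ein (r v z)) / ee (y v)) *
      Complex.exp (∑' v : {v // v ∉ T₁ ∪ T₂}, (LE (r v z) - LE (y v))), ?_, fun z hz => ⟨?_, ?_⟩⟩
  · refine DifferentiableOn.mul (diffOn_prod _ fun v _ => ?_)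
      (DifferentiableOn.cexp (diffOn_tsum hU (fun v => ?_) fun z hz => ?_))
    · simp only [div_eq_mul_inv]
      exact ((Ein_diff.comp_differentiableOn ((hr v).mono hUB)).neg.cexp).mul_const _
    · refine DifferentiableOn.sub_const (fun z hz => ?_) _
      have h1 : r v z ∈ slitPlane := Or.inl (lt_of_lt_of_le one_pos (hT z hz v v.2).1)
      exact (LE_deriv h1).differentiableAt.comp_differentiableWithinAt z ((hr v).mono hUB z hz)
    · refine ⟨U, hU.mem_nhds hz, _, ((hu.mul_left 2).add (hy.mul_left 2)).subtype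
        {v | v ∉ T₁ ∪ T₂}, fun v x hx => ?_⟩
      refine (LE_sub (hT x hx v v.2).1 (hT x hx v v.2).2).trans ?_
      have := hb v x (hUW hx).1
      simp only [Function.comp_apply]
      linarith
  · exact mul_ne_zero (Finset.prod_ne_zero_iff.2 fun v _ =>
      div_ne_zero (Complex.exp_ne_zero _) (ee_ne (hy0 v))) (Complex.exp_ne_zero _)
  · rw [pr, (hasProd_quot (T₁ ∪ T₂) (h.summable (hUB hz)) hy (hT z hz)).tprod_eq, mul_right_comm,
      ← Finset.prod_mul_distrib]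
    congr 1
    exact Finset.prod_congr rfl fun v _ => by rw [ee]; ring

theorem pr_diff {B : Set E} (hB : IsOpen B) {r : ι → E → ℂ} (hr : ∀ v, DifferentiableOn ℂ (r v) B)
    (h : Dom B r) {y : ι → ℂ} (hy : Summable fun v => Real.exp (-(y v).re)) (hy0 : ∀ v, y v ≠ 0) :
    DifferentiableOn ℂ (pr r y) B := by
  intro z hz
  obtain ⟨U, hU, hzU, hUB, T, -, u, hu, h⟩ := pr_loc hB hr h hy hy0 hz
  have h1 : DifferentiableOn ℂ (fun z => u z * ∏ v ∈ T, r v z) U :=
    hu.mul (diffOn_prod _ fun v _ => (hr v).mono hUB)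
  exact ((h1.congr fun x hx => (h x hx).2).differentiableAt
    (hU.mem_nhds hzU)).differentiableWithinAt

end Vale.Agent.P300LP
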