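import Vale.Agent.P300LT.Defs
import Vale.Agent.P300LP.Prod

/-! Polarised invariants of a vector and a pair of points of the ball. -/

open scoped ComplexConjugate Topology
open Set Filter
open Vale.Agent.P288.BQ Vale.Agent.P288.X11 P300LT

namespace Vale.Agent.P300LP

noncomputable section

variable {p : ℕ} (h : Fin (p + 1) → ℝ) (t : ℝ)

/-- `- h ((1,z), (1,w))`; it has positive real part on the ball. -/
def Np (z w : Fin p → ℂ) : ℂ := -herm h (vec z) (vec w)

/-- The invariant `t ell_v(z) conj (ell_v(w)) / Np z w`. -/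
def Rp (v : Fin (p + 1) → ℂ) (z w : Fin p → ℂ) : ℂ :=
  (t : ℂ) * (ell h v z * conj (ell h v w)) / Np h z w

/-- The potential. -/
def Qp (v : Fin (p + 1) → ℂ) (z w : Fin p → ℂ) : ℂ :=
  Complex.log (Np h z w) + Ein (Rp h t v z w)

/-- The four point function. -/
def Q4 (v : Fin (p + 1) → ℂ) (z z' w w' : Fin p → ℂ) : ℂ :=
  Qp h t v z w - Qp h t v z' w - Qp h t v z w' + Qp h t v z' w'

/-- The polarised covariant derivative of `ell v`. -/
def alq (v : Fin (p + 1) → ℂ) (z w X : Fin p → ℂ) : ℂ :=
  herm h (lift0 X) v - ell h v z * (herm h (lift0 X) (vec w) / herm h (vec z) (vec w))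

/-- The polarised Kudla - Millson form; it is the mixed second derivative of `Qp`. -/
def Wq (v : Fin (p + 1) → ℂ) (z w X Y : Fin p → ℂ) : ℂ :=
  Complex.exp (-Rp h t v z w) * ((t : ℂ) * alq h v z w X * conj (alq h v w z Y) / Np h z w +
    (herm h (lift0 X) (lift0 Y) / herm h (vec z) (vec w) -
      herm h (lift0 X) (vec w) * herm h (vec z) (lift0 Y) / herm h (vec z) (vec w) ^ 2))

end

end Vale.Agent.P300LP
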