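import Vale.Agent.P300LP.Inv

/-! Block QF: the weighted four point sums. -/

open scoped ComplexConjugate Topology
open NumberField Set
open Vale.Agent.P288.BQ Vale.Agent.P288.X11 P300LT

namespace Vale.Agent.P300LP

variable {L : Type} [Field L] [NumberField L] [IsCMField L] {p : ℕ} (S : Setup L p)

/-- The action of `γ` on vectors. -/
def mv {L : Type} [Field L] (γ : GL (Fin (p + 1)) L) : (Fin (p + 1) → L) ≃ (Fin (p + 1) → L) where
  toFun v := γ.1.mulVec v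
  invFun v := (γ⁻¹).1.mulVec v
  left_inv v := by
    simp only [Matrix.mulVec_mulVec]
    rw [← Units.val_mul, inv_mul_cancel, Units.val_one, Matrix.one_mulVec]
  right_inv v := by
    simp only [Matrix.mulVec_mulVec]
    rw [← Units.val_mul, mul_inv_cancel, Units.val_one, Matrix.one_mulVec]

theorem adm_le {φ : (Fin (p + 1) → L) → ℂ} (hφ : Adm φ) {v : Fin (p + 1) → L} {x : ℂ} {u : ℝ}
    (h : Intg v → ‖x‖ ≤ u) : ‖φ v * x‖ ≤ |u| := by
  by_cases hv : Intg v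
  · rw [norm_mul]
    calc ‖φ v‖ * ‖x‖ ≤ 1 * ‖x‖ := mul_le_mul_of_nonneg_right (hφ v).1 (norm_nonneg _)
      _ ≤ |u| := by rw [one_mul]; exact (h hv).trans (le_abs_self _)
  · rw [(hφ v).2 hv, zero_mul, norm_zero]
    exact abs_nonneg _

theorem qf_summable (hB : BD) {φ : (Fin (p + 1) → L) → ℂ} (hφ : Adm φ) {z z₀ w w₀ : Fin p → ℂ}
    (hz : z ∈ S.B) (hz₀ : z₀ ∈ S.B) (hw : w ∈ S.B) (hw₀ : w₀ ∈ S.B) :
    Summable fun v => φ v * (wv S v * qv S v z z₀ w w₀) := by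
  obtain ⟨u, hu, h⟩ := hB L p S {z, z₀, w, w₀} (by
    rintro x (rfl | rfl | rfl | rfl) <;> assumption) (Set.toFinite _).isCompact
  exact Summable.of_norm_bounded hu.abs fun v => adm_le hφ fun hv =>
    h v hv z (by simp) z₀ (by simp) w (by simp) w₀ (by simp)

theorem qv_diff (v : Fin (p + 1) → L) (z₀ : Fin p → ℂ) {w w₀ : Fin p → ℂ} (hw : w ∈ S.B)
    (hw₀ : w₀ ∈ S.B) : DifferentiableOn ℂ (fun z => qv S v z z₀ w w₀) S.B :=
  (((pv_diff S v hw).sub_const _).sub (pv_diff S v hw₀)).add_const _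

theorem ex_nhds {z : Fin p → ℂ} (hz : z ∈ S.B) :
    ∃ K ∈ 𝓝 z, K ⊆ S.B ∧ IsCompact K :=
  local_compact_nhds ((isOpen_Ball S.h).mem_nhds hz)

theorem qf (hB : BD) : QF := by
  intro L _ _ _ p S φ hφ
  refine ⟨fun z hz z₁ hz₁ z₀ hz₀ w hw w₀ hw₀ => ⟨?_, ?_⟩, fun z₀ hz₀ w hw w₀ hw₀ => ?_,
    fun γ hγ hi z hz z₀ hz₀ w hw w₀ hw₀ => ?_⟩
  · rw [Qf, Qf, Qf, ← (qf_summable S hB hφ hz hz₁ hw hw₀).tsum_add
      (qf_summable S hB hφ hz₁ hz₀ hw hw₀)]
    exact tsum_congr fun v => by simp only [qv]; ring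
  · rw [Qf, Qf, Qf, ← (qf_summable S hB hφ hw hw₀ hz hz₁).tsum_add
      (qf_summable S hB hφ hw hw₀ hz₁ hz₀)]
    exact tsum_congr fun v => by simp only [qv]; ring
  · refine diffOn_tsum (isOpen_Ball S.h)
      (fun v => ((qv_diff S v z₀ hw hw₀).const_mul _).const_mul _) fun z hz => ?_
    obtain ⟨K, hK, hKB, hKc⟩ := ex_nhds S hz
    obtain ⟨u, hu, h⟩ := hB L p S (K ∪ {z₀, w, w₀}) (by
      rintro x (hx | rfl | rfl | rfl)
      exacts [hKB hx, hz₀, hw, hw₀]) (hKc.union (Set.toFinite _).isCompact)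
    exact ⟨K, hK, _, hu.abs, fun v y hy => adm_le hφ fun hv =>
      h v hv y (Or.inl hy) z₀ (by simp) w (by simp) w₀ (by simp)⟩
  · rw [Qf, Qf, ← (mv γ).tsum_eq]
    refine tsum_congr fun v => ?_
    have e : mv γ v = γ.1.mulVec v := rfl
    rw [e, hi, qv_act S hγ v hz hz₀ hw hw₀, wv_eq S (hL_mulVec S hγ v v)]

end Vale.Agent.P300LP
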