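import Vale.Agent.P300LP.Qf

/-! Block SFUN: the holomorphic function with the divisor of one type. -/

open scoped ComplexConjugate Topology
open NumberField Set Filter
open Vale.Agent.P288.BQ Vale.Agent.P288.X11 P300LT

namespace Vale.Agent.P300LP

set_option linter.unusedSectionVars false

variable {L : Type} [Field L] [NumberField L] [IsCMField L] {p : ℕ} (S : Setup L p)

theorem cg_intg {N : ℕ} {j v : Fin (p + 1) → L} (hj : Intg j) (h : Cg N j v) : Intg v := fun k => by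
  obtain ⟨y, hy⟩ := h k
  obtain ⟨x, hx⟩ := hj k
  refine ⟨x + N * y, ?_⟩
  have e : ((x + N * y : 𝓞 L) : L) = (x : L) + N * (y : L) := by simp
  rw [e, ← hx, ← hy]; ring

theorem cg_mv {N : ℕ} {j v : Fin (p + 1) → L} (hj : Intg j) {γ : GL (Fin (p + 1)) L}
    (hγ : γ ∈ S.Gam N) (h : Cg N j v) : Cg N j (γ.1.mulVec v) := fun k => by
  choose x hx using hγ.2.1
  choose w hw using cg_intg hj h
  obtain ⟨y, hy⟩ := h k
  refine ⟨y + ∑ l, x k l * w l, ?_⟩
  have e : ((y + ∑ l, x k l * w l : 𝓞 L) : L) = (y : L) + ∑ l, (x k l : L) * (w l : L) := by simp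
  have e2 : (γ.1.mulVec v) k = v k + ∑ l, (N : L) * ((x k l : L) * (w l : L)) := by
    have e3 : ∀ l, γ.1 k l * v l =
        (1 : Matrix _ _ L) k l * v l + (N : L) * ((x k l : L) * (w l : L)) := fun l => by
      rw [← hw l]; linear_combination v l * hx k l
    have e4 : ∑ l, (1 : Matrix _ _ L) k l * v l = v k := congrFun (Matrix.one_mulVec v) k
    simp only [Matrix.mulVec, dotProduct, e3, Finset.sum_add_distrib, e4]
  rw [e, e2, mul_add, Finset.mul_sum, ← hy]; ring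

theorem om_mv {N : ℕ} {j : Fin (p + 1) → L} (hj : Intg j) {γ : GL (Fin (p + 1)) L}
    (hγ : γ ∈ S.Gam N) {v : Fin (p + 1) → L} (h : v ∈ Om S N j) : γ.1.mulVec v ∈ Om S N j :=
  ⟨cg_mv S hj hγ h.1, (hL_mulVec S hγ.1 v v).trans h.2⟩

theorem om_iff {N : ℕ} {j : Fin (p + 1) → L} (hj : Intg j) {γ : GL (Fin (p + 1)) L}
    (hγ : γ ∈ S.Gam N) (v : Fin (p + 1) → L) : v ∈ Om S N j ↔ mv γ v ∈ Om S N j := by
  refine ⟨om_mv S hj hγ, fun h => ?_⟩
  have h1 := om_mv S hj ((S.Gam N).inv_mem hγ) h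
  have e : (γ⁻¹).1.mulVec (mv γ v) = v := (mv γ).left_inv v
  rwa [e] at h1

theorem adm_ind {A : Set (Fin (p + 1) → L)} (hA : ∀ v ∈ A, Intg v) : Adm (ind A) := fun v => by
  by_cases hv : v ∈ A
  · exact ⟨by simp [ind, hv], fun h => (h (hA v hv)).elim⟩
  · simp [ind, hv]

/-- The unit factor of `rv`. -/
noncomputable def gv (v : Fin (p + 1) → L) (z w : Fin p → ℂ) : ℂ :=
  -((tt S : ℂ) * conj ((tt S : ℂ) * ell S.h (cv S v) w)) * (herm (kk S) (Zv S z) (Zv S w))⁻¹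

theorem rv_eq (v : Fin (p + 1) → L) (z w : Fin p → ℂ) :
    rv S v z w = gv S v z w * ell S.h (cv S v) z := by
  rw [rv, P300LT.Rp, gv, ← herm_conj (kk S) (Zv S w) (lat S v), herm_Zv_lat, herm_Zv_lat]
  ring

theorem gv_ne {v : Fin (p + 1) → L} {z w : Fin p → ℂ} (hz : z ∈ S.B) (hw : w ∈ S.B)
    (h : ell S.h (cv S v) w ≠ 0) : gv S v z w ≠ 0 := by
  have ht : (tt S : ℂ) ≠ 0 := Complex.ofReal_ne_zero.2 (tt_pos S).ne'
  refine mul_ne_zero (neg_ne_zero.2 (mul_ne_zero ht ?_)) (inv_ne_zero (ZZ_ne S hz hw))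
  rw [map_ne_zero]
  exact mul_ne_zero ht h

theorem gv_diff (v : Fin (p + 1) → L) {w : Fin p → ℂ} (hw : w ∈ S.B) :
    DifferentiableOn ℂ (fun z => gv S v z w) S.B :=
  ((herm_Zv_diff S _).differentiableOn.inv fun _ hz => ZZ_ne S hz hw).const_mul _

theorem rv_ne {v : Fin (p + 1) → L} {z w : Fin p → ℂ} (hz : z ∈ S.B) (hw : w ∈ S.B)
    (h1 : ell S.h (cv S v) z ≠ 0) (h2 : ell S.h (cv S v) w ≠ 0) : rv S v z w ≠ 0 := by
  rw [rv_eq]
  exact mul_ne_zero (gv_ne S hz hw h2) h1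

theorem ell_of_rv {v : Fin (p + 1) → L} {z w : Fin p → ℂ} (h : rv S v z w ≠ 0) :
    ell S.h (cv S v) z ≠ 0 := fun h0 => h (by rw [rv_eq, h0, mul_zero])

theorem ee_four (v : Fin (p + 1) → L) {z z₀ w w₀ : Fin p → ℂ} (hz : z ∈ S.B) (hz₀ : z₀ ∈ S.B)
    (hw : w ∈ S.B) (hw₀ : w₀ ∈ S.B) : ee (rv S v z w) * ee (rv S v z₀ w₀) =
      ee (rv S v z₀ w) * ee (rv S v z w₀) * Complex.exp (-qv S v z z₀ w w₀) := by
  have h1 := ZZ_ne S hz hw
  have h2 := ZZ_ne S hz hw₀
  have h3 := ZZ_ne S hz₀ hw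
  have h4 := ZZ_ne S hz₀ hw₀
  simp only [ee, qv, pv, Pp, Complex.exp_neg, Complex.exp_add, Complex.exp_sub,
    Complex.exp_log (neg_ne_zero.2 h1), Complex.exp_log (neg_ne_zero.2 h2),
    Complex.exp_log (neg_ne_zero.2 h3), Complex.exp_log (neg_ne_zero.2 h4), rv]
  have g1 := Complex.exp_ne_zero (Ein (P300LT.Rp (kk S) (lat S v) (Zv S z) (Zv S w)))
  have g2 := Complex.exp_ne_zero (Ein (P300LT.Rp (kk S) (lat S v) (Zv S z) (Zv S w₀)))
  have g3 := Complex.exp_ne_zero (Ein (P300LT.Rp (kk S) (lat S v) (Zv S z₀) (Zv S w)))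
  have g4 := Complex.exp_ne_zero (Ein (P300LT.Rp (kk S) (lat S v) (Zv S z₀) (Zv S w₀)))
  generalize Complex.exp (Ein (P300LT.Rp (kk S) (lat S v) (Zv S z) (Zv S w))) = a1 at g1 ⊢
  generalize Complex.exp (Ein (P300LT.Rp (kk S) (lat S v) (Zv S z) (Zv S w₀))) = a2 at g2 ⊢
  generalize Complex.exp (Ein (P300LT.Rp (kk S) (lat S v) (Zv S z₀) (Zv S w))) = a3 at g3 ⊢
  generalize Complex.exp (Ein (P300LT.Rp (kk S) (lat S v) (Zv S z₀) (Zv S w₀))) = a4 at g4 ⊢
  simp only [P300LT.Rp]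
  field_simp

theorem dom2 (hN : NEG) (hG : GSU) {N : ℕ} {j : Fin (p + 1) → L} (hj : Intg j)
    {K : Set (Fin p → ℂ)} (hK : K ⊆ S.B) (hc : IsCompact K) :
    ∃ u : Om S N j → ℝ, Summable u ∧ ∀ v : Om S N j, ∀ z ∈ K, ∀ w ∈ K,
      Real.exp (-(rv S v.1 z w).re) ≤ u v := by
  obtain ⟨ε, hε, h⟩ := (hN L p S).2 K hK hc
  obtain ⟨u, hu, hu'⟩ := hG L p S ε hε 0
  refine ⟨fun v => ‖wv S j‖⁻¹ * u v, (hu.subtype _).mul_left _, fun v z hz w hw => ?_⟩
  have h1 := hu' v (cg_intg hj v.2.1)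
  rw [pow_zero, one_mul] at h1
  have h2 := Real.exp_le_exp.2 (h z hz w hw (lat S v))
  rw [← wv_eq S v.2.2, wv, Complex.norm_exp, ← Real.exp_neg]
  refine le_trans (le_of_eq ?_) (mul_le_mul_of_nonneg_left (h2.trans h1) (Real.exp_pos _).le)
  rw [← Real.exp_add, Complex.sub_re, rv]
  congr 1
  ring

theorem dom_B (hN : NEG) (hG : GSU) {N : ℕ} {j : Fin (p + 1) → L} (hj : Intg j)
    {w : Fin p → ℂ} (hw : w ∈ S.B) : Dom S.B fun (v : Om S N j) z => rv S v.1 z w := by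
  intro z hz
  obtain ⟨K, hK, hKB, hKc⟩ := ex_nhds S hz
  obtain ⟨u, hu, h⟩ := dom2 S hN hG (N := N) hj (K := insert w K)
    (insert_subset hw hKB) (hKc.insert w)
  exact ⟨K, hK, u, hu, fun v y hy => h v y (Or.inr hy) w (Or.inl rfl)⟩

theorem dense_ell {v : Fin (p + 1) → L} (hv : v ≠ 0) : Dense {z | ell S.h (cv S v) z ≠ 0} := by
  have ha : AnalyticOnNhd ℂ (ell S.h (cv S v)) univ := fun z _ => by
    have e : ell S.h (cv S v) = fun z => (S.h 0 : ℂ) * 1 * conj (cv S v 0) +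
        ∑ k : Fin p, (S.h k.succ : ℂ) * z k * conj (cv S v k.succ) := by
      funext z
      simp only [ell, herm, Fin.sum_univ_succ, vec_zero, vec_succ]
    rw [e]
    refine analyticAt_const.add (Finset.analyticAt_fun_sum _ fun k _ => ?_)
    exact (analyticAt_const.mul ((ContinuousLinearMap.proj (R := ℂ)
      (φ := fun _ : Fin p => ℂ) k).analyticAt z)).mul analyticAt_const
  intro z
  by_contra hz
  have h1 : ell S.h (cv S v) =ᶠ[𝓝 z] fun _ => 0 := by
    filter_upwards [isClosed_closure.isOpen_compl.mem_nhds hz] with y hy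
    by_contra h
    exact hy (subset_closure h)
  have h2 := ha.eq_of_eventuallyEq analyticOnNhd_const h1
  have h0 : S.φ₀ (v 0) = 0 := by
    have := congrFun h2 0
    simpa [ell, herm, Fin.sum_univ_succ, cv, S.h0_neg.ne] using this
  apply hv
  funext k
  refine Fin.cases ((map_eq_zero _).1 h0) (fun k => ?_) k
  have := congrFun h2 (Pi.single k 1)
  simp only [ell, herm, Fin.sum_univ_succ, vec_zero, vec_succ, cv, h0, map_zero, mul_zero,
    zero_add] at this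
  rw [Finset.sum_eq_single k (fun l _ hl => by simp [Pi.single_eq_of_ne hl]) (by simp)] at this
  simpa [(S.hk_pos k).ne'] using this

theorem cont_ell (v : Fin (p + 1) → ℂ) : Continuous (ell S.h v) := by
  have e : ell S.h v = fun z => (S.h 0 : ℂ) * 1 * conj (v 0) +
      ∑ k : Fin p, (S.h k.succ : ℂ) * z k * conj (v k.succ) := by
    funext z
    simp only [ell, herm, Fin.sum_univ_succ, vec_zero, vec_succ]
  rw [e]
  fun_prop

theorem ex_base (hN : NEG) (hG : GSU) {N : ℕ} {j : Fin (p + 1) → L} (hj : Intg j)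
    (h0 : hL S j j ≠ 0) : ∃ b ∈ S.B, ∀ v : Om S N j, ell S.h (cv S v.1) b ≠ 0 := by
  have hs := (dom_B S hN hG (N := N) hj S.zero_mem_B).summable S.zero_mem_B
  have hc : Countable (Om S N j) := by
    have h1 := hs.countable_support
    rw [Function.support_eq_univ fun v => (Real.exp_pos _).ne'] at h1
    exact countable_univ_iff.1 h1
  have hd : Dense (⋂ v : Om S N j, {z | ell S.h (cv S v.1) z ≠ 0}) :=
    dense_iInter_of_isOpen (fun v => isOpen_ne_fun (cont_ell S _) continuous_const) fun v =>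
      dense_ell S fun h => h0 (by rw [← v.2.2, h]; simp [hL])
  obtain ⟨b, hb, hb'⟩ := hd.inter_open_nonempty _ (isOpen_Ball S.h) ⟨0, S.zero_mem_B⟩
  exact ⟨b, hb, fun v => mem_iInter.1 hb' v⟩

theorem sfun (hN : NEG) (hG : GSU) (hB : BD) : SFUN := by
  intro L _ _ _ p S N j _ hj h0
  obtain ⟨b, hb, hbl⟩ := ex_base S hN hG (N := N) hj h0
  have hD := fun {w} (hw : w ∈ S.B) => dom_B S hN hG (N := N) hj hw
  have hy := (hD hb).summable hb
  have hy0 : ∀ v : Om S N j, rv S v.1 b b ≠ 0 := fun v => rv_ne S hb hb (hbl v) (hbl v)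
  have hr : ∀ v : Om S N j, DifferentiableOn ℂ (fun z => rv S v.1 z b) S.B :=
    fun v => rv_diff S v.1 hb
  have hP := fun {z} (hz : z ∈ S.B) => pr_hasProd (hD hb) hy hy0 hz
  refine ⟨b, hb, pr (fun (v : Om S N j) z => rv S v.1 z b) fun v => rv S v.1 b b,
    ⟨pr_diff (isOpen_Ball S.h) hr (hD hb) hy hy0, fun z₀ hz₀ => ?_⟩, fun γ hγ => ?_⟩
  · obtain ⟨U, hU, hzU, hUB, T, hT, u, hu, h⟩ := pr_loc (isOpen_Ball S.h) hr (hD hb) hy hy0 hz₀
    refine ⟨U, hU, hzU, hUB, T.map (Function.Embedding.subtype _), fun v hv => ?_,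
      fun v hv hvT z hz => ?_, fun z => u z * ∏ v ∈ T, gv S v.1 z b,
      hu.mul (diffOn_prod _ fun v _ => (gv_diff S v.1 hb).mono hUB), fun z hz => ⟨?_, ?_⟩⟩
    · obtain ⟨w, -, rfl⟩ := Finset.mem_map.1 hv
      exact w.2
    · exact ell_of_rv S (hT ⟨v, hv⟩ (fun h => hvT (Finset.mem_map.2 ⟨_, h, rfl⟩)) z hz)
    · exact mul_ne_zero (h z hz).1
        (Finset.prod_ne_zero_iff.2 fun v _ => gv_ne S (hUB hz) hb (hbl v))
    · rw [(h z hz).2, Finset.prod_map, mul_assoc, ← Finset.prod_mul_distrib]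
      congr 1
      exact Finset.prod_congr rfl fun v _ => rv_eq S v.1 z b
  · have hU : γ ∈ S.U := hγ.1
    have hw : act (S.mat γ⁻¹) b ∈ S.B := act_B S (S.U.inv_mem hU) hb
    obtain ⟨e, he⟩ : ∃ e : Om S N j ≃ Om S N j, ∀ v, (e v).1 = γ.1.mulVec v.1 :=
      ⟨(mv γ).subtypeEquiv (om_iff S hj hγ), fun _ => rfl⟩
    have e1 : ∀ (v : Om S N j), ∀ z ∈ S.B,
        rv S (e v).1 (act (S.mat γ) z) b = rv S v.1 z (act (S.mat γ⁻¹) b) := fun v z hz => by
      rw [he, ← rv_act S hU v.1 hz hw, act_inv S hU hb]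
    have hQ := fun {z} (hz : z ∈ S.B) => (e.hasProd_iff).2 (hP (act_B S hU hz))
    refine ⟨?_, fun z hz => ?_⟩
    · obtain ⟨P, hP1, hP2⟩ := ex_hasProd ((hD hb).summable (act_B S hU hb)) hy hy0
      rw [(hP (act_B S hU hb)).unique hP1]
      refine hP2 fun v => rv_ne S (act_B S hU hb) hb ?_ (hbl v)
      obtain ⟨v, rfl⟩ := e.surjective v
      refine ell_of_rv S (w := act (S.mat γ) b) ?_
      rw [he, rv_act S hU v.1 hb hb]
      exact hy0 v
    · have hs := (qf_summable S hB (adm_ind (A := Om S N j) fun v hv => cg_intg hj hv.1)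
        hz hb hw hb).hasSum
      have hs2 : HasSum (fun v : Om S N j => -qv S v.1 z b (act (S.mat γ⁻¹) b) b)
          (-((wv S j)⁻¹ * Qf S (ind (Om S N j)) z b (act (S.mat γ⁻¹) b) b)) := by
        have h1 := (hasSum_subtype_iff_of_support_subset (s := Om S N j) (fun v hv => by
          by_contra hc
          exact hv (by simp [ind, hc]))).2 hs
        have h2 := (h1.mul_left (wv S j)⁻¹).neg
        have h3 : wv S j ≠ 0 := Complex.exp_ne_zero _
        refine HasSum.congr_fun h2 fun v => ?_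
        simp only [Function.comp_apply, ind, indicator_of_mem v.2, wv_eq S v.2.2]
        field_simp
      refine (hQ hz).unique (HasProd.congr_fun (((hQ hb).mul (hP hz)).mul hs2.cexp) fun v => ?_)
      have h4 := ee_four S v.1 hz hb hw hb
      have h5 := ee_ne (hy0 v)
      have h6 := ee_ne (hy0 (e v))
      simp only [Function.comp_apply, e1 v z hz, e1 v b hb]
      field_simp
      linear_combination h4

end Vale.Agent.P300LP
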